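import Vale.Agent.P036.Final

namespace Vale.Agent.Results.P036.PowerGain

/-- Area of the triangle `pqr`: half the absolute value of `det (q - p, r - p)`. -/
noncomputable def area (p q r : ℝ × ℝ) : ℝ :=
  |(q.1 - p.1) * (r.2 - p.2) - (q.2 - p.2) * (r.1 - p.1)| / 2

/-- `Δ(P)`: the least area of a triangle spanned by three distinct points of `P`. -/
noncomputable def minArea (P : Finset (ℝ × ℝ)) : ℝ :=
  sInf {a : ℝ | ∃ p ∈ P, ∃ q ∈ P, ∃ r ∈ P, p ≠ q ∧ p ≠ r ∧ q ≠ r ∧ a = area p q r}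

/-- `Δ(n)`: the largest value of `Δ(P)` over `n`-point subsets `P` of the unit square. -/
noncomputable def heilbronn (n : ℕ) : ℝ :=
  sSup {d : ℝ | ∃ P : Finset (ℝ × ℝ), P.card = n ∧
    (∀ p ∈ P, p.1 ∈ Set.Icc (0 : ℝ) 1 ∧ p.2 ∈ Set.Icc (0 : ℝ) 1) ∧ d = minArea P}

lemma exists_triple (P : Finset (ℝ × ℝ)) (h : 3 ≤ P.card) :
    ∃ p ∈ P, ∃ q ∈ P, ∃ r ∈ P, p ≠ q ∧ p ≠ r ∧ q ≠ r := by
  obtain ⟨p, q, r, hp, hq, hr, h1, h2, h3⟩ := Finset.two_lt_card_iff.1 h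
  exact ⟨p, hp, q, hq, r, hr, h1, h2, h3⟩

lemma lower : ∃ η : ℝ, 0 < η ∧ ∃ c : ℝ, 0 < c ∧ ∀ n : ℕ, 3 ≤ n →
    c * (n : ℝ) ^ (-2 + η) ≤ heilbronn n := by
  obtain ⟨η, hη, c, hc, h⟩ := Vale.Agent.P036.all_n
  refine ⟨η, hη, c, hc, fun n hn => ?_⟩
  obtain ⟨P, P1, P2, P3⟩ := h n (by omega)
  have hb : BddAbove {d : ℝ | ∃ P : Finset (ℝ × ℝ), P.card = n ∧
      (∀ p ∈ P, p.1 ∈ Set.Icc (0 : ℝ) 1 ∧ p.2 ∈ Set.Icc (0 : ℝ) 1) ∧ d = minArea P} := by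
    refine ⟨1, ?_⟩
    rintro d ⟨Q, Q1, Q2, rfl⟩
    obtain ⟨p, hp, q, hq, r, hr, h1, h2, h3⟩ := exists_triple Q (by omega)
    have hle : minArea Q ≤ area p q r := by
      apply csInf_le
      · refine ⟨0, ?_⟩
        rintro a ⟨p, _, q, _, r, _, _, _, _, rfl⟩
        unfold area
        positivity
      · exact ⟨p, hp, q, hq, r, hr, h1, h2, h3, rfl⟩
    refine hle.trans ?_
    obtain ⟨⟨a1, a2⟩, a3, a4⟩ := Q2 p hp
    obtain ⟨⟨b1, b2⟩, b3, b4⟩ := Q2 q hq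
    obtain ⟨⟨c1, c2⟩, c3, c4⟩ := Q2 r hr
    have aux : ∀ u v : ℝ, |u| ≤ 1 → |v| ≤ 1 → |u * v| ≤ 1 := fun u v hu hv => by
      rw [abs_mul]; exact mul_le_one₀ hu (abs_nonneg _) hv
    have e1 := aux (q.1 - p.1) (r.2 - p.2) (by rw [abs_le]; constructor <;> linarith)
      (by rw [abs_le]; constructor <;> linarith)
    have e2 := aux (q.2 - p.2) (r.1 - p.1) (by rw [abs_le]; constructor <;> linarith)
      (by rw [abs_le]; constructor <;> linarith)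
    have e3 := abs_sub ((q.1 - p.1) * (r.2 - p.2)) ((q.2 - p.2) * (r.1 - p.1))
    unfold area
    linarith
  refine le_trans ?_ (le_csSup hb ⟨P, P1, P2, rfl⟩)
  apply le_csInf
  · obtain ⟨p, hp, q, hq, r, hr, h1, h2, h3⟩ := exists_triple P (by omega)
    exact ⟨_, p, hp, q, hq, r, hr, h1, h2, h3, rfl⟩
  · rintro a ⟨p, hp, q, hq, r, hr, h1, h2, h3, rfl⟩
    exact P3 p hp q hq r hr h1 h2 h3

theorem result :
    (∃ η : ℝ, 0 < η ∧ ∃ c : ℝ, 0 < c ∧ ∀ n : ℕ, 3 ≤ n →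
      c * (n : ℝ) ^ (-2 + η) ≤ heilbronn n) ∧
    ¬ (∀ ε : ℝ, 0 < ε → ∃ C : ℝ, ∃ n₀ : ℕ, ∀ n : ℕ, n₀ ≤ n →
      heilbronn n ≤ C * (n : ℝ) ^ (-2 + ε)) := by
  refine ⟨lower, fun hQ => ?_⟩
  obtain ⟨η, hη, c, hc, h⟩ := lower
  obtain ⟨C, n₀, hC⟩ := hQ (η / 2) (by positivity)
  have ht : Filter.Tendsto (fun n : ℕ => c * (n : ℝ) ^ (η / 2)) Filter.atTop Filter.atTop :=
    ((tendsto_rpow_atTop (by positivity)).comp tendsto_natCast_atTop_atTop).const_mul_atTop hc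
  obtain ⟨n, hn1, hn2, hn3⟩ := ((ht.eventually_gt_atTop C).and
    ((Filter.eventually_ge_atTop n₀).and (Filter.eventually_ge_atTop 3))).exists
  have hn : (0 : ℝ) < n := by exact_mod_cast (by omega : 0 < n)
  have h1 := (h n hn3).trans (hC n hn2)
  have e : (n : ℝ) ^ (-2 + η) = (n : ℝ) ^ (η / 2) * (n : ℝ) ^ (-2 + η / 2) := by
    rw [← Real.rpow_add hn]; congr 1; ring
  rw [e, ← mul_assoc] at h1
  have h2 : 0 < (n : ℝ) ^ (-2 + η / 2) := Real.rpow_pos_of_pos hn _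
  exact absurd (le_of_mul_le_mul_right h1 h2) (not_le.2 hn1)

end Vale.Agent.Results.P036.PowerGain
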